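import Vale.Agent.P252G.DivS.Field
import Vale.Agent.P252G.DivW.Main

/-!
The divergence identities with skew companions on the sections of a solution.
-/

open Finset Topology Filter MeasureTheory Set

noncomputable section

set_option maxSynthPendingDepth 3

namespace Vale.Agent.P252G

open Vale.Agent.P252B (V)

/-- On each section there is a jet at every point whose forms with skew companions integrate to
zero. -/
def DivSpecS (n : ℕ) (σ : ℝ) (m : ℕ) : Prop :=
  ∀ (P : Sol n) (h : ℝ), 0 < h → ∃ J : V n → Jet n,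
    (∀ x ∈ P.sec h, (J x).Valid ∧ (J x).X = qX P.u x ∧ (J x).T = (P.cut h x)⁻¹) ∧
    ∀ t : STerm, t.Ok m →
      IntegrableOn (fun x => P.cut h x ^ m * dt P.u x ^ σ * (J x).PhiS σ m t) (P.sec h) volume ∧
      (∫ x in P.sec h, P.cut h x ^ m * dt P.u x ^ σ * (J x).PhiS σ m t) = 0

/-- The pointwise certificate with skew companions. -/
def PointCertS {ι : Type} [Fintype ι] (n q : ℕ) (σ : ℝ) (m : ℕ) (t : ι → STerm) (c : ι → ℝ)
    (ε N : ℝ) : Prop :=
  ∀ J : Jet n, J.Valid → ε * J.X ^ q - N * J.T ^ q ≤ ∑ i, c i * J.PhiS σ m (t i)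

namespace Calc

variable {n : ℕ}

namespace Smooth

variable {u : E n → ℝ} {Ω : Set (E n)}

lemma cd_wfGS (S : Smooth Ω u) (s : SFld) : ContDiffOn ℝ (↑(⊤ : ℕ∞)) (wfGS u s) Ω := by
  have hzL : ContDiffOn ℝ (↑(⊤ : ℕ∞)) (zL u) Ω := S.cd_upv S.cd_DLf
  have hzd := S.cd_upv S.cd_du
  obtain ⟨b, F⟩ := s
  have hw : ContDiffOn ℝ (↑(⊤ : ℕ∞)) (wfG u (du u) F) Ω := by
    cases F
    · exact S.cd_DLf
    · exact S.cd_du
    · exact S.cd_D2L.clm_apply hzL
    · exact S.cd_D2L.clm_apply hzd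
    · exact (S.cd_CC.clm_apply hzL).clm_apply hzL
    · exact (S.cd_CC.clm_apply hzL).clm_apply hzd
    · exact (S.cd_CC.clm_apply hzd).clm_apply hzd
  cases b
  · exact hw
  · exact ((hw.clm_apply hzL).smul S.cd_du).sub ((hw.clm_apply hzd).smul S.cd_DLf)

end Smooth

/-- The divergence identities. -/
theorem divSpecS (n : ℕ) (σ : ℝ) (m : ℕ) : DivSpecS n σ m := by
  classical
  intro P h hh
  have S := smooth_sol P
  have hop : IsOpen (P.sec h) := P.isOpen_sec h
  have hms : MeasurableSet (P.sec h) := hop.measurableSet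
  set J : (E n) → Jet n := fun x =>
    if hx : x ∈ P.Ω then jet P.u h (S.exists_frame hx).choose x else jet P.u h (fun _ => 0) x
    with hJ
  refine ⟨J, fun x hx => ?_, fun t ⟨hm, hρ⟩ => ?_⟩
  · have he := (S.exists_frame hx.1).choose_spec
    simp only [hJ, dif_pos hx.1]
    exact ⟨S.jet_valid P.am hx.1 hx.2 he, jet_X S hx.1 he h, rfl⟩
  have hm' : t.deg ≤ m := le_trans (Nat.le_add_right _ 2) hm
  have hDc : ContDiffOn ℝ (↑(⊤ : ℕ∞)) (Dbar P.u h t.ρ) P.Ω :=
    (((contDiffOn_const.sub S.smooth).pow 2).mul (S.cd_DLf.clm_apply (S.cd_upv S.cd_DLf))).add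
      (contDiffOn_const.mul (S.cd_du.clm_apply (S.cd_upv S.cd_du))) |>.add
      (contDiffOn_const.sub S.smooth)
  set W := {y | y ∈ P.Ω ∧ 0 < Dbar P.u h t.ρ y} with hWdef
  have hW : IsOpen W := hDc.continuousOn.isOpen_inter_preimage S.isOpen isOpen_Ioi
  have hWΩ : W ⊆ P.Ω := fun y hy => hy.1
  have hKW : {x | x ∈ P.Ω ∧ P.u x ≤ h} ⊆ W := fun y hy => ⟨hy.1, Dbar_pos P hh hρ hy⟩
  have hzd := S.cd_upv S.cd_du
  have hR : ContDiffOn ℝ (↑(⊤ : ℕ∞)) (regS P.u σ h t) W :=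
    ((((contDiffOn_const.sub S.smooth).pow (2 * t.r)).mono hWΩ).mul
      (((hDc.mono hWΩ).pow t.r).inv fun y hy => pow_ne_zero t.r hy.2.ne') |>.mul
      (((contDiffOn_const.mul S.cd_Lf).exp.mul
        ((((S.cd_DLf.clm_apply (S.cd_upv S.cd_DLf)).pow _).mul ((S.cd_DLf.clm_apply hzd).pow _)).mul
          ((S.cd_du.clm_apply hzd).pow _))).mono hWΩ)).smul
      ((S.cd_upv (S.cd_wfGS t.s)).mono hWΩ)
  obtain ⟨hI, h0⟩ := S.integral_cut h (d := m - t.deg) (by omega) hW hWΩ hR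
    (P.isCompact_csec h) hKW
  have hkey : EqOn
      (fun x => tr3 (fderiv ℝ (fun y => (h - P.u y) ^ (m - t.deg) • regS P.u σ h t y) x))
      (fun x => P.cut h x ^ m * dt P.u x ^ σ * (J x).PhiS σ m t) (P.sec h) := by
    intro x hx
    have he := (S.exists_frame hx.1).choose_spec
    have hev : (fun y => (h - P.u y) ^ (m - t.deg) • regS P.u σ h t y) =ᶠ[𝓝 x]
        fieldS P.u σ h m t :=
      eventually_of_mem (hop.mem_nhds hx) fun y hy =>
        (fieldS_eq σ h t hm' (sub_pos.2 hy.2).ne').symm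
    simp only [hev.fderiv_eq, S.tr3_fieldS P.am hx.1 hx.2 he σ m t hρ.le, hJ, dif_pos hx.1]
    congr 2
    rw [Real.rpow_def_of_pos (show 0 < dt P.u x from (S.pos x hx.1).det_pos)]
    congr 1
    simp only [Lf, dt]
    have h2 : (n : ℝ) + 2 ≠ 0 := by positivity
    field_simp
  exact ⟨IntegrableOn.congr_fun hI hkey hms, (setIntegral_congr_fun hms hkey).symm.trans h0⟩

end Calc

end Vale.Agent.P252G
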