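import Vale.Agent.P252G.DivW.Spec

/-!
Skew companions `⟨L, w⟩ U - ⟨U, w⟩ L` of the seven fields and their divergence forms.
-/

open Finset

noncomputable section

namespace Vale.Agent.P252G

/-- A field (`skew = false`) or its skew companion (`skew = true`). -/
structure SFld where
  skew : Bool
  F : Fld

/-- number of `U` factors -/
def SFld.degU (s : SFld) : ℕ := s.F.degU + if s.skew then 1 else 0

/-- The part of the antisymmetrised derivative of a field that is not universal, from the pairings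
with `L`, with `U` and among the fields. -/
def antiQ (T P Y : ℝ) (Lw Uw : Fld → ℝ) (d : Fld → Fld → ℝ) : Fld → ℝ
  | .l => 0
  | .u => 0
  | .ml => d .al .mu - d .au .ml
  | .mu => (T + Y) * Uw .ml - d .bu .ml - T * Lw .mu - P * Uw .mu + d .au .mu
  | .al => 2 * (d .mu .al - d .ml .au)
  | .au => d .mu .au - d .ml .bu + (T + Y) * Uw .al - T * Lw .au - P * Uw .au
  | .bu => 2 * ((T + Y) * Uw .au - T * Lw .bu - P * Uw .bu)

/-- The trace of the derivative of a skew companion, from the same pairings. -/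
def trKQ (ν T X P Y : ℝ) (Lw Uw : Fld → ℝ) (d : Fld → Fld → ℝ) (F : Fld) : ℝ :=
  Lw F * (ν * T + Y) + (ν + 1) * X * Uw F + d F .mu - T * Lw F - P * Uw F + antiQ T P Y Lw Uw d F

/-- A term of a certificate with skew companions. -/
structure STerm where
  s : SFld
  e : ℕ × ℕ × ℕ
  r : ℕ
  ρ : ℝ

/-- total `U` degree -/
def STerm.deg (t : STerm) : ℕ := t.s.degU + t.e.2.1 + 2 * t.e.2.2

/-- Admissible terms for the cutoff exponent `m`. -/
def STerm.Ok (t : STerm) (m : ℕ) : Prop := t.deg + 2 ≤ m ∧ 0 < t.ρ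

namespace Jet

variable {n : ℕ} (J : Jet n)

/-- the fields -/
def wS (s : SFld) (i : Fin n) : ℝ :=
  if s.skew then dot J.L (J.w s.F) * J.U i - dot J.U (J.w s.F) * J.L i else J.w s.F i

/-- trace of the derivative of a skew companion -/
def trK (F : Fld) : ℝ :=
  trKQ (n : ℝ) J.T J.X J.P J.Y (fun G => dot J.L (J.w G)) (fun G => dot J.U (J.w G))
    (fun G H => dot (J.w G) (J.w H)) F

/-- trace of the derivatives of the fields -/
def trS (s : SFld) : ℝ := if s.skew then J.trK s.F else J.trDw s.F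

/-- the divergence form of one term -/
def PhiS (σ : ℝ) (m : ℕ) (t : STerm) : ℝ :=
  (J.mono t.e * (J.trS t.s + ((n : ℝ) + 2) * (1 - σ) * dot J.L (J.wS t.s)
        - m * dot J.U (J.wS t.s))
      + dot (J.dmono t.e) (J.wS t.s)) / J.D t.ρ ^ t.r
    - (t.r : ℝ) * J.mono t.e * dot (J.dD t.ρ) (J.wS t.s) / J.D t.ρ ^ (t.r + 1)

lemma PhiS_plain (σ : ℝ) (m : ℕ) (F : Fld) (e : ℕ × ℕ × ℕ) (r : ℕ) (ρ : ℝ) :
    J.PhiS σ m ⟨⟨false, F⟩, e, r, ρ⟩ = J.PhiT σ m ⟨F, e, r, ρ⟩ := rfl

end Jet

end Vale.Agent.P252G
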