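import Vale.Agent.P252G.Div.Div
import Vale.Agent.P252G.DivS.Jet

/-!
The antisymmetrised derivative of the seven fields on `span(L, U)`: no third derivative survives.
-/

open Finset Topology Filter

noncomputable section

set_option maxSynthPendingDepth 3
set_option linter.unusedSimpArgs false

namespace Vale.Agent.P252G.Calc

open Vale.Agent.P252B (IsAM)

variable {n : ℕ} {u : E n → ℝ} {Ω : Set (E n)} {x : E n} {e : Fin n → E n} {h : ℝ}

namespace Smooth

lemma DC_swap (S : Smooth Ω u) (hx : x ∈ Ω) (a b c d : E n) :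
    fderiv ℝ (CC u) x a b c d = fderiv ℝ (CC u) x d b c a := by
  rw [S.DC_symm₁ hx a b c d, S.DC_symm₂ hx b a c d, S.DC_symm₃ hx b c a d,
    S.DC_symm₂ hx b c d a, S.DC_symm₁ hx b d c a]

lemma DM_swap (S : Smooth Ω u) (hx : x ∈ Ω) (a b c : E n) :
    fderiv ℝ (D2L u) x a b c = fderiv ℝ (D2L u) x c b a := by
  rw [S.DM_symm₁ hx a b c, S.DM_symm₂ hx b a c, S.DM_symm₁ hx b c a]

set_option maxHeartbeats 1000000 in
lemma anti_wf (S : Smooth Ω u) (hAM : IsAM Ω u) (hx : x ∈ Ω) (hv : u x < h)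
    (he : Frame u x e) (F : Fld) :
    let J := jet u h e x
    fderiv ℝ (wf u h F) x (zU u h x) (zL u x) - fderiv ℝ (wf u h F) x (zL u x) (zU u h x) =
      antiQ J.T J.P J.Y (fun G => dot J.L (J.w G)) (fun G => dot J.U (J.w G))
        (fun G H => dot (J.w G) (J.w H)) F := by
  intro J
  obtain ⟨U', hU, hU'⟩ := S.hasFDerivAt_Uf hx hv
  have hL := S.dAt S.cd_DLf hx
  have hM := S.dAt S.cd_D2L hx
  have hC := S.dAt S.cd_CC hx
  obtain ⟨dzL, gzL⟩ := S.gg_fderiv_upv hx hL
  obtain ⟨dzU, gzU⟩ := S.gg_fderiv_upv hx hU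
  have w2 := fun G => (S.trace_wf hAM hx hv he G).2.2
  have hgU : ∀ p, gg u x (zU u h x) (e p) = J.U p := fun p => by rw [zU, S.gg_upv hx]; rfl
  have hgL : ∀ p, gg u x (zL u x) (e p) = J.L p := fun p => by rw [zL, S.gg_upv hx]; rfl
  have hYv : Uf u h x (zU u h x) = J.Y := by rw [zU, S.apply_upv hx he]; rfl
  have hPv : Uf u h x (zL u x) = J.P := by rw [zL, S.apply_upv hx he]; rfl
  have hUU : ∀ p, U' (zU u h x) (e p) = J.T * J.U p + J.Y * J.U p := fun p => by
    rw [hU', hgU, hYv]; rfl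
  have hUL : ∀ p, U' (zL u x) (e p) = J.T * J.L p + J.P * J.U p := fun p => by
    rw [hU', hgL, hPv]; rfl
  have ml : ∀ p, D2L u x (zL u x) (e p) = J.w .ml p := fun p => w2 .ml p
  have mu : ∀ p, D2L u x (zU u h x) (e p) = J.w .mu p := fun p => w2 .mu p
  have ml' : ∀ p, D2L u x (e p) (zL u x) = J.w .ml p := fun p => by rw [S.D2L_symm hx, ml]
  have mu' : ∀ p, D2L u x (e p) (zU u h x) = J.w .mu p := fun p => by rw [S.D2L_symm hx, mu]
  have al : ∀ p, CC u x (zL u x) (zL u x) (e p) = J.w .al p := fun p => w2 .al p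
  have au : ∀ p, CC u x (zL u x) (zU u h x) (e p) = J.w .au p := fun p => w2 .au p
  have bu : ∀ p, CC u x (zU u h x) (zU u h x) (e p) = J.w .bu p := fun p => w2 .bu p
  have au' : ∀ p, CC u x (zU u h x) (zL u x) (e p) = J.w .au p := fun p => by
    rw [S.CC_symm₁ hx, au]
  have c1 : ∀ (a b : E n) p, CC u x (e p) a b = CC u x a b (e p) := fun a b p => by
    rw [S.CC_symm₁ hx, S.CC_symm₂ hx]
  have c2 : ∀ (a b : E n) p, CC u x a (e p) b = CC u x a b (e p) := fun a b p => S.CC_symm₂ hx _ _ _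
  have gLU : ∀ p, gg u x (fderiv ℝ (zL u) x (zU u h x)) (e p) = J.w .mu p - J.w .au p := fun p => by
    show gg u x (fderiv ℝ (fun y => upv u y (DLf u y)) x (zU u h x)) (e p) = _
    rw [gzL]
    show D2L u x (zU u h x) (e p) - CC u x (zU u h x) (zL u x) (e p) = _
    rw [mu, au']
  have gLL : ∀ p, gg u x (fderiv ℝ (zL u) x (zL u x)) (e p) = J.w .ml p - J.w .al p := fun p => by
    show gg u x (fderiv ℝ (fun y => upv u y (DLf u y)) x (zL u x)) (e p) = _
    rw [gzL]
    show D2L u x (zL u x) (e p) - CC u x (zL u x) (zL u x) (e p) = _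
    rw [ml, al]
  have gUU : ∀ p, gg u x (fderiv ℝ (zU u h) x (zU u h x)) (e p) =
      J.T * J.U p + J.Y * J.U p - J.w .bu p := fun p => by
    show gg u x (fderiv ℝ (fun y => upv u y (Uf u h y)) x (zU u h x)) (e p) = _
    rw [gzU]
    show U' (zU u h x) (e p) - CC u x (zU u h x) (zU u h x) (e p) = _
    rw [hUU, bu]
  have gUL : ∀ p, gg u x (fderiv ℝ (zU u h) x (zL u x)) (e p) =
      J.T * J.L p + J.P * J.U p - J.w .au p := fun p => by
    show gg u x (fderiv ℝ (fun y => upv u y (Uf u h y)) x (zL u x)) (e p) = _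
    rw [gzU]
    show U' (zL u x) (e p) - CC u x (zL u x) (zU u h x) (e p) = _
    rw [hUL, au]
  have hzL : HasFDerivAt (zL u) (fderiv ℝ (zL u) x) x := dzL.hasFDerivAt
  have hzU : HasFDerivAt (zU u h) (fderiv ℝ (zU u h) x) x := dzU.hasFDerivAt
  -- evaluation of a bilinear form at a vector in the frame
  have ev : ∀ (B : E n →L[ℝ] E n →L[ℝ] ℝ) (v d : E n),
      B v d = ∑ p, gg u x v (e p) * B (e p) d := fun B v d => apply_frame he (B.flip d) v
  have evC₁ : ∀ (v b d : E n), CC u x v b d = ∑ p, gg u x v (e p) * CC u x b d (e p) :=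
    fun v b d => by
      rw [show CC u x v b d = ((CC u x).flip b).flip d v from rfl, apply_frame he _ v]
      exact Finset.sum_congr rfl fun p _ => by
        rw [show ((CC u x).flip b).flip d (e p) = CC u x (e p) b d from rfl, c1]
  have evC₂ : ∀ (a v d : E n), CC u x a v d = ∑ p, gg u x v (e p) * CC u x a d (e p) :=
    fun a v d => by
      rw [ev (CC u x a) v d]
      exact Finset.sum_congr rfl fun p _ => by rw [c2]
  cases F
  · change D2L u x _ _ - D2L u x _ _ = _
    rw [S.D2L_symm hx, sub_self]; rfl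
  · change fderiv ℝ (Uf u h) x _ _ - fderiv ℝ (Uf u h) x _ _ = _
    rw [hU.fderiv, hU', hU', S.gg_symm hx]
    simp only [antiQ]
    ring
  · rw [show wf u h .ml = fun y => D2L u y (zL u y) from rfl, (hM.clm_apply hzL).fderiv]
    simp only [add_apply, ContinuousLinearMap.comp_apply, ContinuousLinearMap.flip_apply]
    rw [S.DM_swap hx (zU u h x) (zL u x) (zL u x), ev (D2L u x) (fderiv ℝ (zL u) x (zU u h x)) (zL u x),
      ev (D2L u x) (fderiv ℝ (zL u) x (zL u x)) (zU u h x)]
    simp only [ml', mu', gLU, gLL, gUU, gUL, antiQ, dot, sub_mul, add_mul, Finset.sum_sub_distrib,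
      Finset.sum_add_distrib, mul_assoc, ← Finset.mul_sum]
    try simp only [mul_comm (J.w .ml _) (J.w .mu _)]
    ring
  · rw [show wf u h .mu = fun y => D2L u y (zU u h y) from rfl, (hM.clm_apply hzU).fderiv]
    simp only [add_apply, ContinuousLinearMap.comp_apply, ContinuousLinearMap.flip_apply]
    rw [S.DM_swap hx (zU u h x) (zU u h x) (zL u x), ev (D2L u x) (fderiv ℝ (zU u h) x (zU u h x)) (zL u x),
      ev (D2L u x) (fderiv ℝ (zU u h) x (zL u x)) (zU u h x)]
    simp only [ml', mu', gLU, gLL, gUU, gUL, antiQ, dot, sub_mul, add_mul, Finset.sum_sub_distrib,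
      Finset.sum_add_distrib, mul_assoc, ← Finset.mul_sum]
    try simp only [mul_comm (J.w .ml _) (J.w .mu _)]
    ring
  · rw [show wf u h .al = fun y => CC u y (zL u y) (zL u y) from rfl,
      ((hC.clm_apply hzL).clm_apply hzL).fderiv]
    simp only [add_apply, ContinuousLinearMap.comp_apply, ContinuousLinearMap.flip_apply]
    rw [S.DC_swap hx (zU u h x) (zL u x) (zL u x) (zL u x),
      evC₁ (fderiv ℝ (zL u) x (zU u h x)) (zL u x) (zL u x), evC₁ (fderiv ℝ (zL u) x (zL u x)) (zL u x) (zU u h x),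
      evC₂ (zL u x) (fderiv ℝ (zL u) x (zU u h x)) (zL u x), evC₂ (zL u x) (fderiv ℝ (zL u) x (zL u x)) (zU u h x)]
    simp only [al, au, au', bu, gLU, gLL, gUU, gUL, antiQ, dot, sub_mul, add_mul,
      Finset.sum_sub_distrib, Finset.sum_add_distrib, mul_assoc, ← Finset.mul_sum]
    try simp only [mul_comm (J.w .al _) (J.w .au _), mul_comm (J.w .al _) (J.w .bu _),
      mul_comm (J.w .au _) (J.w .bu _)]
    ring
  · rw [show wf u h .au = fun y => CC u y (zL u y) (zU u h y) from rfl,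
      ((hC.clm_apply hzL).clm_apply hzU).fderiv]
    simp only [add_apply, ContinuousLinearMap.comp_apply, ContinuousLinearMap.flip_apply]
    rw [S.DC_swap hx (zU u h x) (zL u x) (zU u h x) (zL u x),
      evC₁ (fderiv ℝ (zL u) x (zU u h x)) (zU u h x) (zL u x), evC₁ (fderiv ℝ (zL u) x (zL u x)) (zU u h x) (zU u h x),
      evC₂ (zL u x) (fderiv ℝ (zU u h) x (zU u h x)) (zL u x), evC₂ (zL u x) (fderiv ℝ (zU u h) x (zL u x)) (zU u h x)]
    simp only [al, au, au', bu, gLU, gLL, gUU, gUL, antiQ, dot, sub_mul, add_mul,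
      Finset.sum_sub_distrib, Finset.sum_add_distrib, mul_assoc, ← Finset.mul_sum]
    try simp only [mul_comm (J.w .al _) (J.w .au _), mul_comm (J.w .al _) (J.w .bu _),
      mul_comm (J.w .au _) (J.w .bu _)]
    ring
  · rw [show wf u h .bu = fun y => CC u y (zU u h y) (zU u h y) from rfl,
      ((hC.clm_apply hzU).clm_apply hzU).fderiv]
    simp only [add_apply, ContinuousLinearMap.comp_apply, ContinuousLinearMap.flip_apply]
    rw [S.DC_swap hx (zU u h x) (zU u h x) (zU u h x) (zL u x),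
      evC₁ (fderiv ℝ (zU u h) x (zU u h x)) (zU u h x) (zL u x), evC₁ (fderiv ℝ (zU u h) x (zL u x)) (zU u h x) (zU u h x),
      evC₂ (zU u h x) (fderiv ℝ (zU u h) x (zU u h x)) (zL u x), evC₂ (zU u h x) (fderiv ℝ (zU u h) x (zL u x)) (zU u h x)]
    simp only [al, au, au', bu, gLU, gLL, gUU, gUL, antiQ, dot, sub_mul, add_mul,
      Finset.sum_sub_distrib, Finset.sum_add_distrib, mul_assoc, ← Finset.mul_sum]
    try simp only [mul_comm (J.w .al _) (J.w .au _), mul_comm (J.w .al _) (J.w .bu _),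
      mul_comm (J.w .au _) (J.w .bu _)]
    ring

end Smooth

end Vale.Agent.P252G.Calc
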