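import Vale.Agent.P252G.DivS.Anti
import Vale.Agent.P252G.DivW.Field

/-!
The divergence of the weighted fields and of their skew companions.
-/

open Finset Topology Filter

noncomputable section

set_option maxSynthPendingDepth 3

namespace Vale.Agent.P252G.Calc

open Vale.Agent.P252B (IsAM)

variable {n : ℕ} {u : E n → ℝ} {Ω : Set (E n)} {x : E n} {e : Fin n → E n} {h : ℝ}

/-- the covector fields with their skew companions -/
def wfS (u : E n → ℝ) (h : ℝ) (s : SFld) (y : E n) : E n →L[ℝ] ℝ :=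
  if s.skew then wf u h s.F y (zL u y) • Uf u h y - wf u h s.F y (zU u h y) • DLf u y
  else wf u h s.F y

/-- the same without poles -/
def wfGS (u : E n → ℝ) (s : SFld) (y : E n) : E n →L[ℝ] ℝ :=
  if s.skew then wfG u (du u) s.F y (zL u y) • du u y
      - wfG u (du u) s.F y (upv u y (du u y)) • DLf u y
  else wfG u (du u) s.F y

/-- the scalar factor of a term -/
def coefS (u : E n → ℝ) (σ h : ℝ) (m : ℕ) (t : STerm) (y : E n) : ℝ :=
  (DF u h t.ρ y ^ t.r)⁻¹ *
    ((h - u y) ^ m * Real.exp (-((n : ℝ) + 2) * σ * Lf u y) * monoF u h t.e y)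

/-- the vector field of a term -/
def fieldS (u : E n → ℝ) (σ h : ℝ) (m : ℕ) (t : STerm) (y : E n) : E n :=
  coefS u σ h m t y • upv u y (wfS u h t.s y)

/-- its regular factor -/
def regS (u : E n → ℝ) (σ h : ℝ) (t : STerm) (y : E n) : E n :=
  ((h - u y) ^ (2 * t.r) * (Dbar u h t.ρ y ^ t.r)⁻¹ *
    (Real.exp (-((n : ℝ) + 2) * σ * Lf u y) * monoG u (du u) t.e y)) • upv u y (wfGS u t.s y)

lemma wfS_eq (h : ℝ) (s : SFld) (y : E n) :
    wfS u h s y = ((h - u y)⁻¹) ^ s.degU • wfGS u s y := by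
  obtain ⟨b, F⟩ := s
  cases b
  · simp [wfS, wfGS, SFld.degU, wf_eq]
  · simp only [wfS, wfGS, SFld.degU, if_true, wf_eq, zU, Uf, upv, map_smul, smul_apply,
      smul_eq_mul, smul_smul, smul_sub, pow_succ]
    congr 2 <;> ring

lemma fieldS_eq (σ h : ℝ) {m : ℕ} (t : STerm) (hm : t.deg ≤ m) {y : E n} (hy : h - u y ≠ 0) :
    fieldS u σ h m t y = (h - u y) ^ (m - t.deg) • regS u σ h t y := by
  obtain ⟨d, rfl⟩ := Nat.exists_eq_add_of_le hm
  rw [Nat.add_sub_cancel_left, fieldS, coefS, regS, monoF_eq, wfS_eq, DF_eq t.ρ hy]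
  simp only [upv, map_smul, smul_smul]
  congr 1
  rw [mul_pow, mul_inv, inv_pow, inv_inv, ← pow_mul, STerm.deg,
    show t.s.degU + t.e.2.1 + 2 * t.e.2.2 + d = (t.e.2.1 + 2 * t.e.2.2) + t.s.degU + d by ring,
    pow_add, pow_add, inv_pow, inv_pow]
  field_simp

namespace Smooth

/-- divergence of a scalar times a raised covector field -/
lemma tr3_gen (S : Smooth Ω u) (hx : x ∈ Ω) (he : Frame u x e) {f : E n → ℝ}
    (hf : DifferentiableAt ℝ f x) {w : E n → E n →L[ℝ] ℝ} (hw : DifferentiableAt ℝ w x) :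
    tr3 (fderiv ℝ (fun y => f y • upv u y (w y)) x) =
      ∑ c, fderiv ℝ f x (e c) * w x (e c) + f x * (∑ c, fderiv ℝ w x (e c) (e c)
        + ((n : ℝ) + 2) * ∑ c, DLf u x (e c) * w x (e c)) := by
  obtain ⟨hz, hz'⟩ := S.gg_fderiv_upv hx hw.hasFDerivAt
  have hC : ∀ q, ∑ c, CC u x (e c) (e q) (e c) = -((n : ℝ) + 2) * DLf u x (e q) := fun q => by
    rw [← S.trC hx he]
    exact Finset.sum_congr rfl fun c _ => S.CC_symm₁ hx _ _ _
  have hsum : ∑ c, CC u x (e c) (upv u x (w x)) (e c) =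
      -(((n : ℝ) + 2) * ∑ c, DLf u x (e c) * w x (e c)) := by
    rw [S.upv_frame hx he]
    simp only [map_sum, map_smul, _root_.sum_apply, smul_apply, smul_eq_mul]
    rw [Finset.sum_comm, Finset.mul_sum, ← Finset.sum_neg_distrib]
    refine Finset.sum_congr rfl fun q _ => ?_
    rw [← Finset.mul_sum, hC]
    ring
  rw [(hf.hasFDerivAt.fun_smul hz.hasFDerivAt).fderiv, tr3_frame he]
  simp only [add_apply, smul_apply, ContinuousLinearMap.smulRight_apply, map_add, map_smul,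
    smul_eq_mul, hz', sub_apply, S.gg_upv hx, Finset.sum_add_distrib, ← Finset.mul_sum,
    Finset.sum_sub_distrib, hsum]
  ring

lemma trace_wfS (S : Smooth Ω u) (hAM : IsAM Ω u) (hx : x ∈ Ω) (hv : u x < h)
    (he : Frame u x e) (s : SFld) :
    DifferentiableAt ℝ (wfS u h s) x ∧
      ∑ c, fderiv ℝ (wfS u h s) x (e c) (e c) = (jet u h e x).trS s ∧
      ∀ i, wfS u h s x (e i) = (jet u h e x).wS s i := by
  obtain ⟨b, F⟩ := s
  obtain ⟨hw, hw1, hw2⟩ := S.trace_wf hAM hx hv he F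
  cases b
  · exact ⟨hw, hw1, hw2⟩
  set J := jet u h e x with hJ
  obtain ⟨U', hU, hU'⟩ := S.hasFDerivAt_Uf hx hv
  have hL := S.dAt S.cd_DLf hx
  obtain ⟨d1, g1⟩ := S.fderiv_pair hx he hw.hasFDerivAt hL
  obtain ⟨d2, g2⟩ := S.fderiv_pair hx he hw.hasFDerivAt hU
  have h1 : wf u h F x (zL u x) = dot J.L (J.w F) := by
    rw [zL, S.apply_upv hx he]
    exact Finset.sum_congr rfl fun i _ => by rw [hw2]; rfl
  have h2 : wf u h F x (zU u h x) = dot J.U (J.w F) := by
    rw [zU, S.apply_upv hx he]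
    exact Finset.sum_congr rfl fun i _ => by rw [hw2]; rfl
  have d1' : DifferentiableAt ℝ (fun y => wf u h F y (zL u y)) x := d1
  have d2' : DifferentiableAt ℝ (fun y => wf u h F y (zU u h y)) x := d2
  have hd : HasFDerivAt (fun y => wf u h F y (zL u y) • Uf u h y - wf u h F y (zU u h y) • DLf u y)
      _ x := (d1'.hasFDerivAt.fun_smul hU).sub (d2'.hasFDerivAt.fun_smul hL)
  refine ⟨hd.differentiableAt, ?_, fun i => ?_⟩
  · change ∑ c, fderiv ℝ (fun y => wf u h F y (zL u y) • Uf u h y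
      - wf u h F y (zU u h y) • DLf u y) x (e c) (e c) = J.trK F
    rw [hd.fderiv]
    simp only [sub_apply, add_apply, smul_apply, ContinuousLinearMap.smulRight_apply, smul_eq_mul,
      Finset.sum_sub_distrib, Finset.sum_add_distrib, ← Finset.mul_sum, hU', he _ _, if_true]
    have eU : ∑ c, fderiv ℝ (fun y => wf u h F y (zL u y)) x (e c) * Uf u h x (e c) =
        fderiv ℝ (fun y => wf u h F y (zL u y)) x (zU u h x) := by
      rw [zU, S.apply_upv hx he]
      exact Finset.sum_congr rfl fun c _ => mul_comm _ _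
    have eL : ∑ c, fderiv ℝ (fun y => wf u h F y (zU u h y)) x (e c) * DLf u x (e c) =
        fderiv ℝ (fun y => wf u h F y (zU u h y)) x (zL u x) := by
      rw [zL, S.apply_upv hx he]
      exact Finset.sum_congr rfl fun c _ => mul_comm _ _
    rw [eU, eL]
    have f1 : ∀ c, fderiv ℝ (fun y => wf u h F y (zL u y)) x c =
        fderiv ℝ (wf u h F) x c (zL u x) + wf u h F x (fderiv ℝ (fun y => upv u y (DLf u y)) x c) :=
      fun c => by
        rw [(hw.hasFDerivAt.clm_apply (S.gg_fderiv_upv hx hL).1.hasFDerivAt).fderiv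
          |> fun r => (show fderiv ℝ (fun y => wf u h F y (zL u y)) x = _ from r)]
        simp [add_comm]
        rfl
    have f2 : ∀ c, fderiv ℝ (fun y => wf u h F y (zU u h y)) x c =
        fderiv ℝ (wf u h F) x c (zU u h x) + wf u h F x (fderiv ℝ (fun y => upv u y (Uf u h y)) x c) :=
      fun c => by
        rw [(hw.hasFDerivAt.clm_apply (S.gg_fderiv_upv hx hU).1.hasFDerivAt).fderiv
          |> fun r => (show fderiv ℝ (fun y => wf u h F y (zU u h y)) x = _ from r)]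
        simp [add_comm]
        rfl
    rw [f1, f2, apply_frame he (wf u h F x) (fderiv ℝ (fun y => upv u y (DLf u y)) x (zU u h x)),
      apply_frame he (wf u h F x) (fderiv ℝ (fun y => upv u y (Uf u h y)) x (zL u x))]
    have hm : ∀ p, D2L u x (zU u h x) (e p) = J.w .mu p := (S.trace_wf hAM hx hv he .mu).2.2
    have hgL : ∀ p, gg u x (zL u x) (e p) = J.L p := fun p => by rw [zL, S.gg_upv hx]; rfl
    have hP : Uf u h x (zL u x) = J.P := by rw [zL, S.apply_upv hx he]; rfl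
    have hcc : ∀ p, CC u x (zU u h x) (zL u x) (e p) = CC u x (zL u x) (zU u h x) (e p) :=
      fun p => S.CC_symm₁ hx _ _ _
    have ga : ∀ p, gg u x (fderiv ℝ (fun y => upv u y (DLf u y)) x (zU u h x)) (e p) =
        J.w .mu p - CC u x (zU u h x) (zL u x) (e p) := fun p => by
      rw [(S.gg_fderiv_upv hx hL).2]
      show D2L u x _ _ - _ = _
      rw [hm]
      rfl
    have gb : ∀ p, gg u x (fderiv ℝ (fun y => upv u y (Uf u h y)) x (zL u x)) (e p) =
        J.T * J.L p + J.P * J.U p - CC u x (zL u x) (zU u h x) (e p) := fun p => by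
      rw [(S.gg_fderiv_upv hx hU).2, sub_apply, hU', hgL, hP]
      rfl
    have anti := S.anti_wf hAM hx hv he F
    have hM := (S.trM hAM hx he)
    simp only [ga, gb, hcc, hw2, h1, h2, Jet.trK, trKQ, sub_mul, add_mul, Finset.sum_sub_distrib,
      Finset.sum_add_distrib, mul_assoc, ← Finset.mul_sum] at anti ⊢
    rw [show ∑ c, fderiv ℝ (DLf u) x (e c) (e c) = _ from hM,
      show ∑ c, Uf u h x (e c) * Uf u h x (e c) = J.Y from rfl]
    simp only [← hJ, Jet.X, dot, Finset.sum_const, Finset.card_univ, Fintype.card_fin,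
      nsmul_eq_mul, mul_one] at anti ⊢
    rw [show ∑ c, DLf u x (e c) * DLf u x (e c) = ∑ i, J.L i * J.L i from rfl,
      show (h - u x)⁻¹ = J.T from rfl]
    simp only [mul_comm (J.w .mu _) (J.w F _)]
    linear_combination anti
  · show (wf u h F x (zL u x) • Uf u h x - wf u h F x (zU u h x) • DLf u x) (e i) = _
    rw [sub_apply, smul_apply, smul_apply, h1, h2]
    rfl

/-- The divergence of a term. -/
lemma tr3_fieldS (S : Smooth Ω u) (hAM : IsAM Ω u) (hx : x ∈ Ω) (hv : u x < h)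
    (he : Frame u x e) (σ : ℝ) (m : ℕ) (t : STerm) (hρ : 0 ≤ t.ρ) :
    tr3 (fderiv ℝ (fieldS u σ h m t) x) =
      (h - u x) ^ m * Real.exp (-((n : ℝ) + 2) * σ * Lf u x) * (jet u h e x).PhiS σ m t := by
  obtain ⟨hw, hw1, hw2⟩ := S.trace_wfS hAM hx hv he t.s
  obtain ⟨⟨dX0, dX1⟩, ⟨dP0, dP1⟩, ⟨dY0, dY1⟩⟩ := S.fderiv_scalars hx hv he
  set J := jet u h e x with hJ
  have hne : h - u x ≠ 0 := (sub_pos.2 hv).ne'
  have hX : DLf u x (zL u x) = J.X := by rw [zL, S.apply_upv hx he]; rfl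
  have hP : DLf u x (zU u h x) = J.P := by
    rw [zU, S.apply_upv hx he]
    exact Finset.sum_congr rfl fun i _ => mul_comm _ _
  have hY : Uf u h x (zU u h x) = J.Y := by rw [zU, S.apply_upv hx he]; rfl
  have hD : DF u h t.ρ x = J.D t.ρ := by rw [DF, hX, hY]; rfl
  have hDp : 0 < J.D t.ρ := J.D_pos (inv_pos.2 (sub_pos.2 hv)) hρ
  have hT' : HasFDerivAt (fun y => (h - u y)⁻¹) _ x :=
    (hasDerivAt_inv hne).comp_hasFDerivAt x ((S.dAt S.smooth hx).const_sub h)
  have hD' : HasFDerivAt (DF u h t.ρ) _ x :=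
    (dX0.hasFDerivAt.add (dY0.hasFDerivAt.const_mul t.ρ)).add hT'
  have hDv : ∀ c, fderiv ℝ (DF u h t.ρ) x (e c) = J.dD t.ρ c := fun c => by
    rw [hD'.fderiv]
    simp only [add_apply, smul_apply, smul_eq_mul, dX1, dY1, neg_apply, Jet.dD]
    simp [hJ, jet, Uf, du]
    field_simp
  have hφ : HasFDerivAt (coefS u σ h m t) _ x :=
    ((hasDerivAt_inv (pow_ne_zero t.r (hD ▸ hDp.ne'))).comp_hasFDerivAt x
        (HasFDerivAt.pow hD'.differentiableAt.hasFDerivAt t.r)).mul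
      ((((HasFDerivAt.pow ((S.dAt S.smooth hx).const_sub h) m)).mul
          ((S.dAt S.cd_Lf hx).const_mul (-((n : ℝ) + 2) * σ)).exp).mul
        (((HasFDerivAt.pow dX0.hasFDerivAt t.e.1).mul (HasFDerivAt.pow dP0.hasFDerivAt t.e.2.1)).mul
          (HasFDerivAt.pow dY0.hasFDerivAt t.e.2.2)))
  have hfl : fieldS u σ h m t = fun y => coefS u σ h m t y • upv u y (wfS u h t.s y) := rfl
  rw [hfl, S.tr3_gen hx he hφ.differentiableAt hw, hw1]
  simp only [hw2]
  set v := h - u x with hvdef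
  set q := Real.exp (-((n : ℝ) + 2) * σ * Lf u x)
  have hvU : ∀ c, fderiv ℝ u x (e c) = v * J.U c := fun c => by
    simp [hJ, jet, Uf, du, hvdef, show h - u x ≠ 0 from hne]
  have hc : ∀ c, fderiv ℝ (coefS u σ h m t) x (e c) =
      v ^ m * q * ((J.mono t.e * (-((n : ℝ) + 2) * σ * J.L c - m * J.U c) + J.dmono t.e c)
          / J.D t.ρ ^ t.r - (t.r : ℝ) * J.mono t.e * J.dD t.ρ c / J.D t.ρ ^ (t.r + 1)) := fun c => by
    rw [hφ.fderiv]
    simp only [add_apply, smul_apply, smul_eq_mul, neg_apply, hvU, dX1, dP1, dY1, hDv, hD, hX, hP,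
      hY, Pi.mul_apply, Function.comp_apply, nsmul_eq_mul, ← hvdef, Jet.mono, Jet.dmono, monoF]
    rw [show fderiv ℝ (Lf u) x (e c) = J.L c from rfl]
    have hdv : (m : ℝ) * v ^ (m - 1) * v = m * v ^ m := by
      cases m with
      | zero => simp
      | succ k => rw [Nat.add_sub_cancel, pow_succ]; ring
    have hdr : (t.r : ℝ) * J.D t.ρ ^ (t.r - 1) * ((J.D t.ρ ^ t.r) ^ 2)⁻¹ =
        (t.r : ℝ) / J.D t.ρ ^ (t.r + 1) := by
      rcases Nat.eq_zero_or_pos t.r with hr | hr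
      · simp [hr]
      · obtain ⟨r, hr'⟩ := Nat.exists_eq_add_of_le' hr
        have hD0 := hDp.ne'
        rw [hr', Nat.add_sub_cancel]
        field_simp
        ring
    linear_combination (-((J.D t.ρ ^ t.r)⁻¹ * q * J.U c *
        (J.X ^ t.e.1 * J.P ^ t.e.2.1 * J.Y ^ t.e.2.2))) * hdv -
      (v ^ m * q * (J.X ^ t.e.1 * J.P ^ t.e.2.1 * J.Y ^ t.e.2.2) * J.dD t.ρ c) * hdr
  have hcx : coefS u σ h m t x = v ^ m * q * J.mono t.e / J.D t.ρ ^ t.r := by
    rw [coefS, hD, monoF, hX, hP, hY, Jet.mono]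
    ring
  simp only [hc, hcx, Jet.PhiS, dot, show ∀ c, DLf u x (e c) = J.L c from fun c => rfl]
  simp only [sub_mul, mul_sub, add_mul, mul_add, div_eq_mul_inv, mul_assoc, Finset.sum_sub_distrib,
    Finset.sum_add_distrib, mul_left_comm _ (J.D t.ρ ^ t.r)⁻¹, mul_comm _ (J.D t.ρ ^ t.r)⁻¹,
    mul_left_comm _ (J.D t.ρ ^ (t.r + 1))⁻¹, mul_comm _ (J.D t.ρ ^ (t.r + 1))⁻¹, ← Finset.mul_sum]
  ring

end Smooth

end Vale.Agent.P252G.Calc
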